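import Vale.Agent.P338.R2.H772.Bp.TabQ
import Vale.Agent.P338.R2.H501.Bp.MacB

/-!
P338, stage 3: the files of the constants of the middle and of the final pass.
-/

namespace Vale.Agent.P338.R2.H772.Bp

open Vale.Agent.P338.R2.H898
open Vale.Agent.P338.R2.H968
open Vale.Agent.P338.R2.H784
open Vale.Agent.P338.R2.H784.Fp
open Vale.Agent.P338.R2.H784.Bp
open Vale.Agent.P338.R2.H968.CallEnv (mem0 callC)
open Vale.Agent.P338.R2.H525.Fp (Dim sPar hPar dimR dimR_slots)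
open Vale.Agent.P338.R2.H207.Fp (VV)
open Vale.Agent.P338.R2.H778 (bits)
open Vale.Agent.P338.R2.H778.FpW (PN vB)
open Vale.Agent.P338.R2.H501.Bp (repP repW run_repB run_repB' length_repB rl)
open Function (update)

/-! Numbers. -/

theorem sPar_le (W : ℕ) : 2 * sPar W ≤ W := by
  unfold sPar
  omega

theorem sq_le (W : ℕ) : 4 ^ sPar W * W ^ 2 ≤ 4 * 4 ^ W := by
  have h1 := sPar_le W
  have h2 : W - sPar W < 2 ^ (W - sPar W) := Nat.lt_two_pow_self
  have h3 : W ≤ 2 * 2 ^ (W - sPar W) := by omega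
  have h4 : W ^ 2 ≤ (2 * 2 ^ (W - sPar W)) ^ 2 := Nat.pow_le_pow_left h3 2
  have h5 : (2 * 2 ^ (W - sPar W)) ^ 2 = 4 * 4 ^ (W - sPar W) := by
    rw [mul_pow, ← pow_mul, mul_comm (W - sPar W) 2, pow_mul]
    norm_num
  have h6 : 4 ^ sPar W * 4 ^ (W - sPar W) = 4 ^ W := by
    rw [← pow_add]
    congr 1
    omega
  calc 4 ^ sPar W * W ^ 2 ≤ 4 ^ sPar W * (4 * 4 ^ (W - sPar W)) := by
        rw [← h5]
        exact Nat.mul_le_mul_left _ h4
    _ = 4 * (4 ^ sPar W * 4 ^ (W - sPar W)) := by ring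
    _ = 4 * 4 ^ W := by rw [h6]

/-- The cost of the tables. -/
theorem tab_cost {A₀ : MTM} (h600 : ∀ m, 1 ≤ m → mulTime A₀ m ≤ 600 * m ^ 2)
    {l W n p : ℕ} (h w : ℕ) (hW : 1 ≤ W) (hWl : W ≤ l) (hp2 : p ≤ 4 * 2 ^ sPar W)
    (hn : 576 * 4 ^ l ≤ n) :
    (dimR l W h p w).Q * (2 * (dimR l W h p w).X * wcost A₀ W) ≤
      34 * (3 * callC A₀ + 230) * n := by
  have e1 : (dimR l W h p w).Q = p - 1 := rfl
  have e2 : (dimR l W h p w).X = 2 ^ sPar W := rfl
  rw [e1, e2]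
  have h1 : wcost A₀ W ≤ (3 * callC A₀ + 230) * (601 * W ^ 2) := by
    unfold wcost
    have h2 := h600 W hW
    have h3 : W ≤ W ^ 2 := Nat.le_self_pow (by norm_num) W
    exact Nat.mul_le_mul_left _ (by omega)
  have h4 : 2 ^ sPar W * 2 ^ sPar W = 4 ^ sPar W := by
    rw [← mul_pow]
    norm_num
  have h5 : 4 ^ W ≤ 4 ^ l := Nat.pow_le_pow_right (by norm_num) hWl
  calc (p - 1) * (2 * 2 ^ sPar W * wcost A₀ W)
      ≤ (4 * 2 ^ sPar W) * (2 * 2 ^ sPar W * ((3 * callC A₀ + 230) * (601 * W ^ 2))) :=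
        Nat.mul_le_mul (by omega) (Nat.mul_le_mul_left _ h1)
    _ = 4808 * (3 * callC A₀ + 230) * (2 ^ sPar W * 2 ^ sPar W * W ^ 2) := by ring
    _ = 4808 * (3 * callC A₀ + 230) * (4 ^ sPar W * W ^ 2) := by rw [h4]
    _ ≤ 4808 * (3 * callC A₀ + 230) * (4 * 4 ^ W) := Nat.mul_le_mul_left _ (sq_le W)
    _ ≤ 4808 * (3 * callC A₀ + 230) * (4 * 4 ^ l) :=
        Nat.mul_le_mul_left _ (Nat.mul_le_mul_left _ h5)
    _ ≤ 34 * (3 * callC A₀ + 230) * (576 * 4 ^ l) := by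
        generalize 3 * callC A₀ + 230 = a
        generalize 4 ^ l = b
        have : 4808 * a * (4 * b) = 19232 * (a * b) := by ring
        have : 34 * a * (576 * b) = 19584 * (a * b) := by ring
        omega
    _ ≤ _ := Nat.mul_le_mul_left _ hn

theorem rep_le {rows c P k : ℕ} (hc : 1 ≤ c) (hP : 1 ≤ P) :
    rows * (c * (4 * P + 4) + k * P + 6) + 4 ≤ (k + 14) * (rows * (c * P)) + 4 := by
  have h1 : c * (4 * P + 4) ≤ 8 * (c * P) := by
    calc c * (4 * P + 4) ≤ c * (8 * P) := Nat.mul_le_mul_left _ (by omega)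
      _ = 8 * (c * P) := by ring
  have h2 : k * P ≤ k * (c * P) := Nat.mul_le_mul_left _ (Nat.le_mul_of_pos_left _ hc)
  have h3 : 1 ≤ c * P := Nat.mul_pos hc hP
  have h4 : (k + 14) * (rows * (c * P)) = rows * (8 * (c * P) + k * (c * P) + 6 * (c * P)) := by
    ring
  rw [h4]
  exact Nat.add_le_add_right (Nat.mul_le_mul_left _ (by omega)) 4

theorem length_tabM (D : Dim) : (tabM D).length = D.Q * (2 * D.X) * D.W := by
  unfold tabM
  rw [H501.Bp.length_flatMap_range D.Q (2 * D.X * D.W)]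
  · ring
  · intro q _
    rw [H501.Bp.length_flatMap_range (2 * D.X) D.W]
    intro c _
    exact H778.length_bits _ _

theorem length_tabP (D : Dim) : (tabP D).length = D.X * D.X * D.W := by
  unfold tabP
  rw [H501.Bp.length_flatMap_range D.X (D.X * D.W)]
  · ring
  · intro q _
    rw [H501.Bp.length_flatMap_range D.X D.W]
    intro c _
    exact H778.length_bits _ _

variable {A A₀ : MTM} {Y : Type} {l W h n p w : ℕ}

/-- The constant in the cost. -/
noncomputable def cCon (A₀ : MTM) : ℕ := 3060 * (3 * callC A₀ + 230) + 80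

/-- The cost: `Q` rows of `X` words. -/
theorem cost_con {K Q X G E V T k : ℕ} {a : ℕ} (hQ : 1 ≤ Q) (hX : 1 ≤ X) (hG : 1 ≤ G)
    (hE : 1 ≤ E) (hK : 1 ≤ K) (hV : 1 ≤ V) (hk : k ≤ 90) (hT : T ≤ 34 * a * n)
    (hn : K * (Q * (G * (X * E))) * V ≤ n) (hn1 : 1 ≤ n) :
    k * T + (Q * X * (E * (4 * V + 4) + (3 + 4 * 1) * V + 6) + 4 +
      (Q * (G * (4 * (X * E * V) + 4) + (3 + 4 * 3) * (X * E * V) + 6) + 4 +
      (K * (4 * (Q * G * X * E * V) + 4) + 5))) ≤ (3060 * a + 80) * n := by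
  have h1 := rep_le (rows := Q * X) (c := E) (P := V) (k := 3 + 4 * 1) hE hV
  have hXEV : 1 ≤ X * E * V := Nat.mul_pos (Nat.mul_pos hX hE) hV
  have h2 := rep_le (rows := Q) (c := G) (P := X * E * V) (k := 3 + 4 * 3) hG hXEV
  have hQXEV : 1 ≤ Q * (X * (E * V)) := Nat.mul_pos hQ (Nat.mul_pos hX (Nat.mul_pos hE hV))
  have hGU : Q * (X * (E * V)) ≤ G * (Q * (X * (E * V))) := Nat.le_mul_of_pos_left _ hG
  have hKU : G * (Q * (X * (E * V))) ≤ K * (G * (Q * (X * (E * V)))) :=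
    Nat.le_mul_of_pos_left _ hK
  have hKK : K ≤ K * (G * (Q * (X * (E * V)))) := Nat.le_mul_of_pos_right _ (by omega)
  have e1 : Q * X * (E * V) = Q * (X * (E * V)) := by ring
  have e2 : Q * (G * (X * E * V)) = G * (Q * (X * (E * V))) := by ring
  have e3 : K * (4 * (Q * G * X * E * V) + 4) = 4 * (K * (G * (Q * (X * (E * V))))) + 4 * K := by
    ring
  have e4 : K * (Q * (G * (X * E))) * V = K * (G * (Q * (X * (E * V)))) := by ring
  rw [e4] at hn
  rw [e1] at h1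
  rw [e2] at h2
  rw [e3]
  have h3 : k * T ≤ 90 * (34 * a * n) := Nat.mul_le_mul hk hT
  have e5 : (3060 * a + 80) * n = 90 * (34 * a * n) + 80 * n := by ring
  rw [e5]
  omega

section

variable [DecidableEq (LG A.Tape A₀.Tape Y)] [DecidableEq (Al A A₀)]

/-- The constants of the middle pass. -/
noncomputable def conMQ (A A₀ : MTM) {Y : Type} [DecidableEq (Al A A₀)] : PG A A₀ Y :=
  .seq (tabMQ A A₀ (ng .x) (ng .t))
    (.seq (repP (bt false) (ng .t) (ng .x) (ng .cb) [og (.r .wd)] (og (.r .E)))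
      (.seq (repP (bt false) (ng .x) (ng .t) (ng .cb) [og (.r .C), og (.r .E), og (.r .wd)]
        (og (.r .G))) (repW (bt false) (ng .t) (ng .c) (og (.r .K)))))

/-- The constants of the final pass. -/
noncomputable def conPQ (A A₀ : MTM) {Y : Type} [DecidableEq (Al A A₀)] : PG A A₀ Y :=
  .seq (tabPQ A A₀ (ng .x) (ng .t))
    (.seq (repP (bt false) (ng .t) (ng .x) (ng .cb) [og (.r .wd)] (og (.r .E)))
      (.seq (repP (bt false) (ng .x) (ng .t) (ng .cb) [og (.r .X), og (.r .E), og (.r .wd)]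
        (og (.r .G))) (repW (bt false) (ng .t) (ng .c) (og (.r .K)))))

/-- The lengths of the rulers. -/
def lenN {T T₀ Y α : Type} (S : ZS α) : LG T T₀ Y → ℕ
  | .inl (.inr (.inr (.r k))) => S.r k
  | _ => 0

/-- **The constants of the middle pass.** -/
theorem run_conMQ (hA₀ : Multiplies A₀) (h600 : ∀ m, 1 ≤ m → mulTime A₀ m ≤ 600 * m ^ 2)
    (hW : 32 ≤ W) (hWl : W ≤ l)
    (h1 : hPar W + sPar W ≤ h) (hl : h ≤ l) (hp : p.Prime) (hp1 : 2 * 2 ^ sPar W < p)
    (hp2 : p ≤ 4 * 2 ^ sPar W) (hw : orderOf (w : ZMod p) = p - 1) (hwp : w < p)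
    (hn : 576 * 4 ^ l ≤ n) (dat clk opX opY res : Zip (Al A A₀)) (B : BS (Al A A₀))
    (ht : B.t = ⟨[], []⟩) (hx : B.x = ⟨[], []⟩) (hc : B.c = ⟨[], []⟩) :
    Prog.Run (dd A A₀) (conMQ A A₀) (st2 Y (sB l W h n p w dat clk opX opY res) B)
      (cCon A₀ * n)
      (st2 Y (sB l W h n p w dat clk opX opY res)
        { B with c := bw A A₀ (conM (dimR l W h p w)) }) := by
  have hok := H525.Fp.dimR_ok l W h p w hW hp hp1 hp2 hw
  obtain ⟨zf, c, o, x, y, t, rB, wB⟩ := B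
  simp only at ht hx hc
  subst ht hx hc
  set S := sB l W h n p w dat clk opX opY res with hS
  set D := dimR l W h p w with hD
  have hDW : D.W = W := rfl
  have hDC : 2 ^ (sPar W + 1) = 2 * D.X := by
    rw [pow_succ, mul_comm]
    rfl
  have hX1 := hok.hX
  have hG1 := hok.hG
  have hE1 := hok.hE
  have hQ1 := H207.Fp.Q_pos hok
  have hK1 : 1 ≤ D.K := Nat.one_le_two_pow
  -- the table
  have k1 := run_tabMQ (A := A) (Y := Y) (n := n) hA₀ hok hwp (fi := ng .x) (fo := ng .t) rfl rfl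
    (by simp [ng]) dat clk opX opY res ⟨zf, ⟨[], []⟩, o, ⟨[], []⟩, y, ⟨[], []⟩, rB, wB⟩ [] rfl rfl
  rw [z2_t, ← hS, ← hD] at k1
  -- the words
  have l2 : (tabM D).length = D.Q * (2 * D.X) *
      (([og (.r .wd)] : List (LG A.Tape A₀.Tape Y)).map (lenN S)).prod := by
    rw [length_tabM]
    simp [lenN, hS, sB, vB, hDW]
  have k2 := run_repB (d := dd A A₀) (bit := (bt : Bool → Al A A₀)) (u := .u)
    (T := (ng .t : LG A.Tape A₀.Tape Y)) (O := ng .x) (B := ng .cb) (cnt := og (.r .E))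
    (rs := [og (.r .wd)]) (lenN S) (by simp [ng, og, lz]) (by simp [ng, og, lz])
    (by
      intro r hr
      simp only [List.mem_singleton] at hr
      subst hr
      show 1 ≤ W
      omega) (X := tabM D) (rows := D.Q * (2 * D.X)) (c := D.E) (m := (mem0 A, mem0 A₀))
    (z := z2 .u S ⟨zf, ⟨[], []⟩, o, ⟨[], []⟩, y, bw A A₀ (tabM D), rB, wB⟩)
    l2 rfl rfl rfl rfl (by
      intro r hr
      simp only [List.mem_singleton] at hr
      subst hr
      rfl)
  have e2 : (([og (.r .wd)] : List (LG A.Tape A₀.Tape Y)).map (lenN S)).prod = D.W := by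
    simp [lenN, hS, sB, vB, hDW]
  rw [e2, z2_t, z2_x] at k2
  set X2 := repB D.W (D.Q * (2 * D.X)) D.E (tabM D) with hX2
  -- the rows
  have e3 : (([og (.r .C), og (.r .E), og (.r .wd)] : List (LG A.Tape A₀.Tape Y)).map
      (lenN S)).prod = 2 * D.X * D.E * D.W := by
    show 2 ^ (sPar W + 1) * (D.E * (D.W * 1)) = _
    rw [hDC]
    ring
  have l3' : X2.length = D.Q * (2 * D.X * D.E * D.W) := by
    rw [hX2, length_repB (rows := D.Q * (2 * D.X)) (by rw [length_tabM])]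
    ring
  have k3 := run_repB (d := dd A A₀) (bit := (bt : Bool → Al A A₀)) (u := .u)
    (T := (ng .x : LG A.Tape A₀.Tape Y)) (O := ng .t) (B := ng .cb) (cnt := og (.r .G))
    (rs := [og (.r .C), og (.r .E), og (.r .wd)]) (lenN S) (by simp [ng, og, lz])
    (by simp [ng, og, lz])
    (by
      intro r hr
      simp only [List.mem_cons, List.not_mem_nil, or_false] at hr
      rcases hr with rfl | rfl | rfl
      · show 1 ≤ 2 ^ (sPar W + 1)
        exact Nat.one_le_two_pow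
      · exact hE1
      · show 1 ≤ W
        omega) (X := X2) (rows := D.Q) (c := D.G) (m := (mem0 A, mem0 A₀))
    (z := z2 .u S ⟨zf, ⟨[], []⟩, o, bw A A₀ X2, y, ⟨[], []⟩, rB, wB⟩)
    (by rw [e3]; exact l3') rfl rfl rfl rfl (by
      intro r hr
      simp only [List.mem_cons, List.not_mem_nil, or_false] at hr
      rcases hr with rfl | rfl | rfl <;> rfl)
  rw [e3, z2_x, z2_t] at k3
  set X3 := repB (2 * D.X * D.E * D.W) D.Q D.G X2 with hX3
  -- the whole
  have l4 : X3.length = D.Q * D.G * (2 * D.X) * D.E * D.W := by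
    rw [hX3, length_repB (rows := D.Q) l3']
    ring
  have k4 := run_repB' (d := dd A A₀) (bit := (bt : Bool → Al A A₀)) (u := .u)
    (T := (ng .t : LG A.Tape A₀.Tape Y)) (O := ng .c) (cnt := og (.r .K))
    (by simp [ng, og, lz]) (X := X3) (c := D.K) (m := (mem0 A, mem0 A₀))
    (z := z2 .u S ⟨zf, ⟨[], []⟩, o, ⟨[], []⟩, y, bw A A₀ X3, rB, wB⟩) rfl rfl rfl
  rw [l4, z2_t, z2_c] at k4
  refine (k1.seq (k2.seq (k3.seq k4))).mono ?_
  -- the cost
  obtain ⟨s1, s2, s3, s4, s5⟩ := dimR_slots l W h p w hW h1 hl hp.pos hp2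
  rw [← hD] at s4
  have c1 := tab_cost h600 h w (by omega) hWl hp2 hn (A₀ := A₀)
  rw [← hD] at c1
  have h4l : 1 ≤ 4 ^ l := Nat.one_le_pow _ _ (by norm_num)
  exact cost_con (n := n) (a := 3 * callC A₀ + 230) (K := D.K) (Q := D.Q) (X := 2 * D.X)
    (G := D.G) (E := D.E) (V := D.W) (T := D.Q * (2 * D.X * wcost A₀ W)) (k := 70) hQ1.le
    (by omega) hG1 hE1 hK1 (by rw [hDW]; omega) (by norm_num) c1 (s4.trans hn) (by omega)

/-- **The constants of the final pass.** -/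
theorem run_conPQ (hA₀ : Multiplies A₀) (h600 : ∀ m, 1 ≤ m → mulTime A₀ m ≤ 600 * m ^ 2)
    (hW : 32 ≤ W) (hWl : W ≤ l)
    (h1 : hPar W + sPar W ≤ h) (hl : h ≤ l) (hp : p.Prime) (hp1 : 2 * 2 ^ sPar W < p)
    (hp2 : p ≤ 4 * 2 ^ sPar W) (hw : orderOf (w : ZMod p) = p - 1) (hwp : w < p)
    (hn : 576 * 4 ^ l ≤ n) (dat clk opX opY res : Zip (Al A A₀)) (B : BS (Al A A₀))
    (ht : B.t = ⟨[], []⟩) (hx : B.x = ⟨[], []⟩) (hc : B.c = ⟨[], []⟩) :
    Prog.Run (dd A A₀) (conPQ A A₀) (st2 Y (sB l W h n p w dat clk opX opY res) B)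
      (cCon A₀ * n)
      (st2 Y (sB l W h n p w dat clk opX opY res)
        { B with c := bw A A₀ (conP (dimR l W h p w)) }) := by
  have hok := H525.Fp.dimR_ok l W h p w hW hp hp1 hp2 hw
  obtain ⟨zf, c, o, x, y, t, rB, wB⟩ := B
  simp only at ht hx hc
  subst ht hx hc
  set S := sB l W h n p w dat clk opX opY res with hS
  set D := dimR l W h p w with hD
  have hDW : D.W = W := rfl
  have hX1 := hok.hX
  have hG1 := hok.hG
  have hE1 := hok.hE
  have hQ1 := H207.Fp.Q_pos hok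
  have hK1 : 1 ≤ D.K := Nat.one_le_two_pow
  -- the table
  have k1 := run_tabPQ (A := A) (Y := Y) (n := n) hA₀ hok hwp (fi := ng .x) (fo := ng .t) rfl rfl
    (by simp [ng]) dat clk opX opY res ⟨zf, ⟨[], []⟩, o, ⟨[], []⟩, y, ⟨[], []⟩, rB, wB⟩ [] rfl rfl
  rw [z2_t, ← hS, ← hD] at k1
  -- the words
  have l2 : (tabP D).length = D.X * D.X *
      (([og (.r .wd)] : List (LG A.Tape A₀.Tape Y)).map (lenN S)).prod := by
    rw [length_tabP]
    simp [lenN, hS, sB, vB, hDW]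
  have k2 := run_repB (d := dd A A₀) (bit := (bt : Bool → Al A A₀)) (u := .u)
    (T := (ng .t : LG A.Tape A₀.Tape Y)) (O := ng .x) (B := ng .cb) (cnt := og (.r .E))
    (rs := [og (.r .wd)]) (lenN S) (by simp [ng, og, lz]) (by simp [ng, og, lz])
    (by
      intro r hr
      simp only [List.mem_singleton] at hr
      subst hr
      show 1 ≤ W
      omega) (X := tabP D) (rows := D.X * D.X) (c := D.E) (m := (mem0 A, mem0 A₀))
    (z := z2 .u S ⟨zf, ⟨[], []⟩, o, ⟨[], []⟩, y, bw A A₀ (tabP D), rB, wB⟩)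
    l2 rfl rfl rfl rfl (by
      intro r hr
      simp only [List.mem_singleton] at hr
      subst hr
      rfl)
  have e2 : (([og (.r .wd)] : List (LG A.Tape A₀.Tape Y)).map (lenN S)).prod = D.W := by
    simp [lenN, hS, sB, vB, hDW]
  rw [e2, z2_t, z2_x] at k2
  set X2 := repB D.W (D.X * D.X) D.E (tabP D) with hX2
  -- the rows
  have e3 : (([og (.r .X), og (.r .E), og (.r .wd)] : List (LG A.Tape A₀.Tape Y)).map
      (lenN S)).prod = D.X * D.E * D.W := by
    show D.X * (D.E * (D.W * 1)) = _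
    ring
  have l3' : X2.length = D.X * (D.X * D.E * D.W) := by
    rw [hX2, length_repB (rows := D.X * D.X) (by rw [length_tabP])]
    ring
  have k3 := run_repB (d := dd A A₀) (bit := (bt : Bool → Al A A₀)) (u := .u)
    (T := (ng .x : LG A.Tape A₀.Tape Y)) (O := ng .t) (B := ng .cb) (cnt := og (.r .G))
    (rs := [og (.r .X), og (.r .E), og (.r .wd)]) (lenN S) (by simp [ng, og, lz])
    (by simp [ng, og, lz])
    (by
      intro r hr
      simp only [List.mem_cons, List.not_mem_nil, or_false] at hr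
      rcases hr with rfl | rfl | rfl
      · exact hX1
      · exact hE1
      · show 1 ≤ W
        omega) (X := X2) (rows := D.X) (c := D.G) (m := (mem0 A, mem0 A₀))
    (z := z2 .u S ⟨zf, ⟨[], []⟩, o, bw A A₀ X2, y, ⟨[], []⟩, rB, wB⟩)
    (by rw [e3]; exact l3') rfl rfl rfl rfl (by
      intro r hr
      simp only [List.mem_cons, List.not_mem_nil, or_false] at hr
      rcases hr with rfl | rfl | rfl <;> rfl)
  rw [e3, z2_x, z2_t] at k3
  set X3 := repB (D.X * D.E * D.W) D.X D.G X2 with hX3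
  -- the whole
  have l4 : X3.length = D.X * D.G * D.X * D.E * D.W := by
    rw [hX3, length_repB (rows := D.X) l3']
    ring
  have k4 := run_repB' (d := dd A A₀) (bit := (bt : Bool → Al A A₀)) (u := .u)
    (T := (ng .t : LG A.Tape A₀.Tape Y)) (O := ng .c) (cnt := og (.r .K))
    (by simp [ng, og, lz]) (X := X3) (c := D.K) (m := (mem0 A, mem0 A₀))
    (z := z2 .u S ⟨zf, ⟨[], []⟩, o, ⟨[], []⟩, y, bw A A₀ X3, rB, wB⟩) rfl rfl rfl
  rw [l4, z2_t, z2_c] at k4
  refine (k1.seq (k2.seq (k3.seq k4))).mono ?_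
  -- the cost
  obtain ⟨s1, s2, s3, s4, s5⟩ := dimR_slots l W h p w hW h1 hl hp.pos hp2
  rw [← hD] at s5
  have c1 := tab_cost h600 h w (by omega) hWl hp2 hn (A₀ := A₀)
  rw [← hD] at c1
  have h4l : 1 ≤ 4 ^ l := Nat.one_le_pow _ _ (by norm_num)
  exact cost_con (n := n) (a := 3 * callC A₀ + 230) (K := D.K) (Q := D.X) (X := D.X)
    (G := D.G) (E := D.E) (V := D.W) (T := D.Q * (2 * D.X * wcost A₀ W)) (k := 90) hX1
    hX1 hG1 hE1 hK1 (by rw [hDW]; omega) (by norm_num) c1 (s5.trans (by omega)) (by omega)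

end

end Vale.Agent.P338.R2.H772.Bp
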