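import Vale.Agent.P338.R2.H207.Fp.Run
import Vale.Agent.P338.R2.H784.Bp.Spec

/-!
P338, stage 3: the programs of the tables of the constants of the middle and of the final pass.
-/

namespace Vale.Agent.P338.R2.H772.Bp

open H207.Fp
open H525.Fp
open H778 (bits)
open H784.Bp (tabM tabP)
open H898 (XP XS XSem WI wsem)
open WP
open Function (update)

variable {A : Par RR} {D : Dim}

theorem tr_loop0 {a : WP RR VV} {v : RR → ℕ} {r : RR} {p : ℕ} (P : ℕ → (VV → ℕ) → Prop)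
    (out : ℕ → List Bool) (hv : v r = 0)
    (h : ∀ i < A.m r, Tr A a (update v r i) p 0 (out i) (P i) (P (i + 1))) :
    Tr A (loop r a) v p 0 ((List.range (A.m r)).flatMap out) (P 0) (P (A.m r)) := by
  have h1 := tr_loop (A := A) (a := a) (v := v) (r := r) (p := p) (n := 0) P out hv (by
    intro i hi
    rw [Nat.mul_zero, Nat.add_zero]
    exact h i hi)
  rw [Nat.mul_zero] at h1
  exact h1

theorem Tr.seq0 {a b : WP RR VV} {v : RR → ℕ} {p : ℕ} {o o' : List Bool}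
    {P Q R : (VV → ℕ) → Prop} (h : Tr A a v p 0 o P Q) (h' : Tr A b v p 0 o' Q R) :
    Tr A (WP.seq a b) v p 0 (o ++ o') P R := H207.Fp.Tr.seq h h'

/-! The table of the middle pass. -/

/-- one row -/
def rowTM : WP RR VV :=
  seq (cp .m .m0) (seq (loop .C (seq (wr .m) (mul .m .m .u)))
    (seq (mul .m0 .m0 .r) (seq (mul .r .r .v2) (mul .u .u .w))))

/-- The table of the middle pass. -/
def progTM : WP RR VV :=
  seq preM (seq (one .m0) (seq (cp .r .r0) (seq (one .u) (loop .Q rowTM))))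

theorem tr_rowTM (hA : Fits A D) (h : D.Ok) (v : RR → ℕ) (p q : ℕ) (hC : v .C = 0) :
    Tr A rowTM v p 0 ((List.range (2 * D.X)).flatMap fun c => bits D.W (D.mid q c))
      (MJ D q) (MJ D (q + 1)) := by
  have h1 : Tr A (cp .m .m0 : WP RR VV) v p 0 [] (MJ D q) (MI D q 0) := by
    refine tr_cp (fun u hu => ?_)
    obtain ⟨⟨h1, h2, h3⟩, h4, h5, h6⟩ := hu
    simp only [MI, MC, Function.update_self, ne_eq, reduceCtorEq, not_false_eq_true,
      Function.update_of_ne]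
    exact ⟨⟨h1, h2, h3⟩, h4, h5, h6, h4⟩
  have h2 : Tr A (loop .C (seq (wr .m) (mul .m .m .u))) v p 0
      ((List.range (A.m .C)).flatMap fun c => bits D.W (D.mid q c)) (MI D q 0)
      (MI D q (A.m .C)) := by
    refine tr_loop0 (fun c => MI D q c) _ hC (fun c _ => ?_)
    have b1 : Tr A (wr .m : WP RR VV) (update v .C c) p 0 (bits A.W (D.mid q c)) (MI D q c)
        (MI D q c) := tr_wr (fun u hu => hu.2.2.2.2)
    have b2 : Tr A (mul .m .m .u : WP RR VV) (update v .C c) p 0 [] (MI D q c)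
        (MI D q (c + 1)) :=
      tr_mul_small hA h (mid_lt h q c) (wp_lt h q) (mid_succ D q c)
        (fun u hu => ⟨hu.2.2.2.2, hu.2.2.2.1, MI_upd hu⟩)
    exact (Tr.seq0 b1 b2).congr (fun _ h => h) rfl (by rw [hA.hW, List.append_nil])
      (fun _ h => h)
  have h3 : Tr A (mul .m0 .m0 .r : WP RR VV) v p 0 [] (MI D q (A.m .C))
      (fun u => MC D u ∧ u .m0 = D.mid (q + 1) 0 ∧ u .r = vp D (D.X + 1 + 2 * q) ∧
        u .u = wp D q) := by
    refine tr_mul_small hA h (mid_lt h q 0) (vp_lt h _) (mid_row D q) (fun u hu => ?_)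
    obtain ⟨⟨h1, h2, h3⟩, h4, h5, h6, -⟩ := hu
    simp [MC, h1, h2, h3, h4, h5, h6]
  have h4 : Tr A (mul .r .r .v2 : WP RR VV) v p 0 []
      (fun u => MC D u ∧ u .m0 = D.mid (q + 1) 0 ∧ u .r = vp D (D.X + 1 + 2 * q) ∧
        u .u = wp D q)
      (fun u => MC D u ∧ u .m0 = D.mid (q + 1) 0 ∧ u .r = vp D (D.X + 1 + 2 * (q + 1)) ∧
        u .u = wp D q) := by
    refine tr_mul_small hA h (vp_lt h _) (vp_lt h 2) (vp_two D q) (fun u hu => ?_)
    obtain ⟨⟨h1, h2, h3⟩, h4, h5, h6⟩ := hu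
    simp [MC, h1, h2, h3, h4, h5, h6]
  have h5 : Tr A (mul .u .u .w : WP RR VV) v p 0 []
      (fun u => MC D u ∧ u .m0 = D.mid (q + 1) 0 ∧ u .r = vp D (D.X + 1 + 2 * (q + 1)) ∧
        u .u = wp D q)
      (MJ D (q + 1)) := by
    refine tr_mul_small hA h (wp_lt h _) (wp_lt h 1) (wp_add D q 1) (fun u hu => ?_)
    obtain ⟨⟨h1, h2, h3⟩, h4, h5, h6⟩ := hu
    simp [MC, MJ, h1, h2, h3, h4, h5, h6]
  refine (Tr.seq0 h1 (Tr.seq0 h2 (Tr.seq0 h3 (Tr.seq0 h4 h5)))).congr (fun _ h => h) rfl ?_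
    (fun _ h => h)
  rw [hA.mC]
  simp

/-- The table of the middle pass. -/
theorem tr_progTM (hA : Fits A D) (h : D.Ok) (v : RR → ℕ) (p : ℕ) (hv : ∀ r, v r = 0) :
    Tr A progTM v p 0 (tabM D) (fun u => u .w = wp D 1) (MC D) := by
  have h1 := tr_preM (p := p) hA h (hv .Q) (hv .X)
  have h2 : Tr A (one .m0 : WP RR VV) v p 0 [] (MC D)
      (fun u => MC D u ∧ u .m0 = D.mid 0 0) := by
    refine tr_one (fun u hu => ?_)
    obtain ⟨h1, h2, h3⟩ := hu
    have e1 : D.mid 0 0 = 1 := by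
      rw [mid_zero_zero]
      exact Nat.mod_eq_of_lt (by have := h.hXp; have := h.hX; omega)
    simp [MC, h1, h2, h3, e1]
  have h3 : Tr A (cp .r .r0 : WP RR VV) v p 0 [] (fun u => MC D u ∧ u .m0 = D.mid 0 0)
      (fun u => MC D u ∧ u .m0 = D.mid 0 0 ∧ u .r = vp D (D.X + 1 + 2 * 0)) := by
    refine tr_cp (fun u hu => ?_)
    obtain ⟨⟨h1, h2, h3⟩, h4⟩ := hu
    simp [MC, h1, h2, h3, h4]
  have h4 : Tr A (one .u : WP RR VV) v p 0 []
      (fun u => MC D u ∧ u .m0 = D.mid 0 0 ∧ u .r = vp D (D.X + 1 + 2 * 0)) (MJ D 0) := by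
    refine tr_one (fun u hu => ?_)
    obtain ⟨⟨h1, h2, h3⟩, h4, h5⟩ := hu
    have e1 := one_eq h
    simp only [MC, MJ, Function.update_self, ne_eq, reduceCtorEq, not_false_eq_true,
      Function.update_of_ne]
    exact ⟨⟨h1, h2, h3⟩, h4, h5, e1.symm⟩
  have h5 : Tr A (loop .Q rowTM) v p 0
      ((List.range (A.m .Q)).flatMap fun q => (List.range (2 * D.X)).flatMap fun c =>
        bits D.W (D.mid q c)) (MJ D 0) (MJ D (A.m .Q)) :=
    tr_loop0 (fun q => MJ D q) _ (hv .Q) (fun q _ => tr_rowTM hA h _ p q (by simp [hv]))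
  refine (Tr.seq0 h1 (Tr.seq0 h2 (Tr.seq0 h3 (Tr.seq0 h4 h5)))).congr (fun _ h => h) rfl ?_
    (fun _ h => h.1)
  rw [hA.mQ]
  rfl

/-! The table of the final pass. -/

/-- one row -/
def rowTP : WP RR VV :=
  seq (cp .m .m0) (seq (cp .u .v2) (seq (loop .X (seq (wr .m)
    (seq (mul .m .m .u) (mul .u .u .v)))) (seq (mul .m0 .m0 .r) (mul .r .r .v))))

/-- The table of the final pass. -/
def progTP : WP RR VV := seq preP (seq (cp .m0 .r0) (seq (one .r) (loop .Y rowTP)))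

theorem tr_rowTP (hA : Fits A D) (h : D.Ok) (v : RR → ℕ) (p y : ℕ) (hX : v .X = 0) :
    Tr A rowTP v p 0 ((List.range D.X).flatMap fun x => bits D.W (D.post x y))
      (PJ D y) (PJ D (y + 1)) := by
  have a1 : Tr A (cp .m .m0 : WP RR VV) v p 0 [] (PJ D y)
      (fun u => PJ D y u ∧ u .m = D.post 0 y) := by
    refine tr_cp (fun u hu => ?_)
    obtain ⟨⟨h1, h2, h3, h4⟩, h5, h6⟩ := hu
    simp only [PJ, PC, Function.update_self, ne_eq, reduceCtorEq, not_false_eq_true,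
      Function.update_of_ne]
    exact ⟨⟨⟨h1, h2, h3, h4⟩, h5, h6⟩, h5⟩
  have a2 : Tr A (cp .u .v2 : WP RR VV) v p 0 []
      (fun u => PJ D y u ∧ u .m = D.post 0 y) (PI D 0 y) := by
    refine tr_cp (fun u hu => ?_)
    obtain ⟨⟨⟨h1, h2, h3, h4⟩, h5, h6⟩, h7⟩ := hu
    simp only [PI, PJ, PC, Function.update_self, ne_eq, reduceCtorEq, not_false_eq_true,
      Function.update_of_ne]
    exact ⟨⟨⟨h1, h2, h3, h4⟩, h5, h6⟩, h7, fun _ => h2⟩
  have a3 : Tr A (loop .X (seq (wr .m) (seq (mul .m .m .u) (mul .u .u .v)))) v p 0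
      ((List.range (A.m .X)).flatMap fun x => bits D.W (D.post x y))
      (PI D 0 y) (PI D (A.m .X) y) := by
    refine tr_loop0 (fun x => PI D x y) _ hX (fun x hx => ?_)
    rw [hA.mX] at hx
    have b1 : Tr A (wr .m : WP RR VV) (update v .X x) p 0 (bits A.W (D.post x y)) (PI D x y)
        (PI D x y) := tr_wr (fun u hu => hu.2.1)
    have b2 : Tr A (mul .m .m .u : WP RR VV) (update v .X x) p 0 [] (PI D x y)
        (fun u => PJ D y u ∧ u .m = D.post (x + 1) y ∧ u .u = wp D (D.X - 1 - x)) := by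
      refine tr_mul_small hA h (post_lt h x y) (wp_lt h _) (post_succ h hx)
        (fun u hu => ?_)
      obtain ⟨⟨⟨h1, h2, h3, h4⟩, h5, h6⟩, h7, h8⟩ := hu
      refine ⟨h7, h8 hx, ?_⟩
      simp only [PJ, PC, Function.update_self, ne_eq, reduceCtorEq, not_false_eq_true,
        Function.update_of_ne]
      exact ⟨⟨⟨h1, h2, h3, h4⟩, h5, h6⟩, trivial, h8 hx⟩
    have b3 : Tr A (mul .u .u .v : WP RR VV) (update v .X x) p 0 []
        (fun u => PJ D y u ∧ u .m = D.post (x + 1) y ∧ u .u = wp D (D.X - 1 - x))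
        (PI D (x + 1) y) := by
      refine tr_mul_small (z := wp D (D.X - 1 - x) * vp D 1 % D.p) hA h
        (wp_lt h _) (vp_lt h 1) rfl (fun u hu => ?_)
      obtain ⟨⟨⟨h1, h2, h3, h4⟩, h5, h6⟩, h7, h8⟩ := hu
      refine ⟨h8, h4, ?_⟩
      simp only [PI, PJ, PC, Function.update_self, ne_eq, reduceCtorEq, not_false_eq_true,
        Function.update_of_ne]
      refine ⟨⟨⟨h1, h2, h3, h4⟩, h5, h6⟩, h7, fun hx' => ?_⟩
      have e1 : D.X - 1 - x = D.X - 1 - (x + 1) + 1 := by omega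
      rw [e1, vp_one, wp_mul_vv h]
    exact (Tr.seq0 b1 (Tr.seq0 b2 b3)).congr (fun _ h => h) rfl
      (by rw [hA.hW, List.append_nil, List.append_nil]) (fun _ h => h)
  have a4 : Tr A (mul .m0 .m0 .r : WP RR VV) v p 0 [] (PI D (A.m .X) y)
      (fun u => PC D u ∧ u .m0 = D.post 0 (y + 1) ∧ u .r = vp D y) := by
    refine tr_mul_small hA h (post_lt h 0 y) (vp_lt h _) (post_row D y) (fun u hu => ?_)
    obtain ⟨⟨⟨h1, h2, h3, h4⟩, h5, h6⟩, -, -⟩ := hu
    simp [PC, h1, h2, h3, h4, h5, h6]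
  have a5 : Tr A (mul .r .r .v : WP RR VV) v p 0 []
      (fun u => PC D u ∧ u .m0 = D.post 0 (y + 1) ∧ u .r = vp D y) (PJ D (y + 1)) := by
    refine tr_mul_small hA h (vp_lt h y) (vp_lt h 1) (vp_add D y 1) (fun u hu => ?_)
    obtain ⟨⟨h1, h2, h3, h4⟩, h5, h6⟩ := hu
    simp [PC, PJ, h1, h2, h3, h4, h5, h6]
  refine (Tr.seq0 a1 (Tr.seq0 a2 (Tr.seq0 a3 (Tr.seq0 a4 a5)))).congr (fun _ h => h) rfl ?_
    (fun _ h => h)
  rw [hA.mX]
  simp

/-- The table of the final pass. -/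
theorem tr_progTP (hA : Fits A D) (h : D.Ok) (v : RR → ℕ) (p : ℕ) (hv : ∀ r, v r = 0) :
    Tr A progTP v p 0 (tabP D) (fun u => u .w = wp D 1) (PC D) := by
  have h1 := tr_preP (p := p) hA h (hv .Q) (hv .X)
  have h2 : Tr A (cp .m0 .r0 : WP RR VV) v p 0 [] (PC D)
      (fun u => PC D u ∧ u .m0 = D.post 0 0) := by
    refine tr_cp (fun u hu => ?_)
    obtain ⟨h1, h2, h3, h4⟩ := hu
    have e1 : D.post 0 0 = vp D (tri D.X) := by
      rw [post_eq, Nat.sub_zero, tri_zero, Nat.add_zero]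
    simp [PC, h1, h2, h3, h4, e1]
  have h3 : Tr A (one .r : WP RR VV) v p 0 [] (fun u => PC D u ∧ u .m0 = D.post 0 0)
      (PJ D 0) := by
    refine tr_one (fun u hu => ?_)
    obtain ⟨⟨h1, h2, h3, h4⟩, h5⟩ := hu
    simp [PC, PJ, h1, h2, h3, h4, h5, vp_zero h]
  have h4 : Tr A (loop .Y rowTP) v p 0
      ((List.range (A.m .Y)).flatMap fun y => (List.range D.X).flatMap fun x =>
        bits D.W (D.post x y)) (PJ D 0) (PJ D (A.m .Y)) :=
    tr_loop0 (fun y => PJ D y) _ (hv .Y) (fun y _ => tr_rowTP hA h _ p y (by simp [hv]))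
  refine (Tr.seq0 h1 (Tr.seq0 h2 (Tr.seq0 h3 h4))).congr (fun _ h => h) rfl ?_
    (fun _ h => h.1)
  rw [hA.mY]
  rfl

theorem wf_progTM : (progTM).WF := by decide
theorem wf_progTP : (progTP).WF := by decide

/-! The costs. -/

section cost

variable {m : RR → ℕ} (hm : Rul m D) (h : D.Ok) {cost : WI VV → ℕ} {T : ℕ}
  (hT : D.W ≤ T) (hc : ∀ j, cost j ≤ T)

include hm h hT hc

theorem bd_progTM : XP.bd m cost progTM ≤ 40 * (D.Q * (2 * D.X * T)) := by
  have hT1 : 1 ≤ T := by have := W_pos h; omega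
  have hX := h.hX
  have hQ := Q_pos h
  have hXQ : D.X ≤ D.Q := by have := h.hXp; unfold Dim.Q; omega
  have eT1 : T ≤ 2 * D.X * T := Nat.le_mul_of_pos_left _ (by omega)
  have eT2 : D.Q * T ≤ D.Q * (2 * D.X * T) := Nat.mul_le_mul_left _ eT1
  have eT3 : D.X * T ≤ D.Q * T := Nat.mul_le_mul_right _ hXQ
  have eT4 : T ≤ D.Q * T := Nat.le_mul_of_pos_left _ (by omega)
  have r1 : XP.bd m cost (WP.loop .C (WP.seq (wr .m) (mul .m .m .u))) ≤
      (2 + 4) * (2 * D.X * T) := by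
    refine bd_loop_le hT1 hm.mC (by omega) ?_
    have := hc (.wr .m)
    have := hc (.mul .m .m .u)
    simp only [XP.bd]
    omega
  have r2 : XP.bd m cost (WP.loop .Q rowTM) ≤ (10 + 4) * (D.Q * (2 * D.X * T)) := by
    refine bd_loop_le (by omega) hm.mQ (by omega) ?_
    have := hc (.cp .m .m0)
    have := hc (.mul .m0 .m0 .r)
    have := hc (.mul .r .r .v2)
    have := hc (.mul .u .u .w)
    unfold rowTM
    simp only [XP.bd] at r1 ⊢
    omega
  have p1 := bd_preV hm h hT hc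
  have p2 : XP.bd m cost (WP.loop .X (mul .t .t .v)) ≤ (1 + 4) * (D.X * T) := by
    refine bd_loop_le hT1 hm.mX hX ?_
    have := hc (.mul .t .t .v)
    simp only [XP.bd]
    omega
  have := hc (.mul .v2 .v .v)
  have := hc (.cp .t .v)
  have := hc (.cp .r0 .t)
  have := hc (.one .m0)
  have := hc (.cp .r .r0)
  have := hc (.one .u)
  unfold progTM preM
  simp only [XP.bd] at r2 p1 p2 ⊢
  omega

theorem bd_progTP : XP.bd m cost progTP ≤ 60 * (D.Q * (2 * D.X * T)) := by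
  have hT1 : 1 ≤ T := by have := W_pos h; omega
  have hX := h.hX
  have hQ := Q_pos h
  have hXQ : D.X ≤ D.Q := by have := h.hXp; unfold Dim.Q; omega
  have eT1 : T ≤ D.X * T := Nat.le_mul_of_pos_left _ (by omega)
  have eT5 : D.X * T ≤ 2 * D.X * T := Nat.mul_le_mul_right _ (by omega)
  have eT2 : D.Q * T ≤ D.Q * (2 * D.X * T) := Nat.mul_le_mul_left _ (by omega)
  have eT3 : D.X * T ≤ D.Q * T := Nat.mul_le_mul_right _ hXQ
  have eT4 : T ≤ D.Q * T := Nat.le_mul_of_pos_left _ (by omega)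
  have eT6 : D.X * (D.X * T) ≤ D.Q * (2 * D.X * T) := Nat.mul_le_mul hXQ eT5
  have r1 : XP.bd m cost (WP.loop .X (WP.seq (wr .m) (WP.seq (mul .m .m .u)
      (mul .u .u .v)))) ≤ (3 + 4) * (D.X * T) := by
    refine bd_loop_le hT1 hm.mX hX ?_
    have := hc (.wr .m)
    have := hc (.mul .m .m .u)
    have := hc (.mul .u .u .v)
    simp only [XP.bd]
    omega
  have r2 : XP.bd m cost (WP.loop .Y rowTP) ≤ (11 + 4) * (D.X * (D.X * T)) := by
    refine bd_loop_le (by omega) hm.mY hX ?_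
    have := hc (.cp .m .m0)
    have := hc (.cp .u .v2)
    have := hc (.mul .m0 .m0 .r)
    have := hc (.mul .r .r .v)
    unfold rowTP
    simp only [XP.bd] at r1 ⊢
    omega
  have p1 := bd_preV hm h hT hc
  have p2 : XP.bd m cost (WP.loop .X (WP.seq (mul .t .t .s) (mul .s .s .v))) ≤
      (2 + 4) * (D.X * T) := by
    refine bd_loop_le hT1 hm.mX hX ?_
    have := hc (.mul .t .t .s)
    have := hc (.mul .s .s .v)
    simp only [XP.bd]
    omega
  have p3 : XP.bd m cost (WP.loop .X (WP.seq (cp .s .t) (mul .t .t .w))) ≤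
      (2 + 4) * (D.X * T) := by
    refine bd_loop_le hT1 hm.mX hX ?_
    have := hc (.cp .s .t)
    have := hc (.mul .t .t .w)
    simp only [XP.bd]
    omega
  have := hc (.one .t)
  have := hc (.one .s)
  have := hc (.cp .r0 .t)
  have := hc (.cp .v2 .s)
  have := hc (.cp .m0 .r0)
  have := hc (.one .r)
  unfold progTP preP
  simp only [XP.bd] at r2 p1 p2 p3 ⊢
  omega

end cost

/-! Evaluation. -/

theorem eval_progTM {m : RR → ℕ} (hm : Rul m D) (h : D.Ok) (w : List Bool) (hwp : D.w < D.p)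
    (u0 : VV → ℕ) (hu : u0 .w = D.w) : ∃ u1 : VV → ℕ, u1 .w = D.w ∧
      XP.eval m w false (wsem D.W D.L D.p (2 ^ D.W / D.p + 1)) progTM
        ⟨fun _ => 0, 0, [], u0⟩ = ⟨fun _ => 0, 0, tabM D, u1⟩ := by
  obtain ⟨u1, h1, h2⟩ := tr_progTM (fits hm w) h (fun _ => 0) 0 (fun _ => rfl) [] u0
    (by show u0 .w = wp D 1; rw [hu, wp_one_eq hwp])
  refine ⟨u1, by rw [h1.2.2, wp_one_eq hwp], ?_⟩
  rw [List.nil_append] at h2
  exact h2

theorem eval_progTP {m : RR → ℕ} (hm : Rul m D) (h : D.Ok) (w : List Bool) (hwp : D.w < D.p)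
    (u0 : VV → ℕ) (hu : u0 .w = D.w) : ∃ u1 : VV → ℕ, u1 .w = D.w ∧
      XP.eval m w false (wsem D.W D.L D.p (2 ^ D.W / D.p + 1)) progTP
        ⟨fun _ => 0, 0, [], u0⟩ = ⟨fun _ => 0, 0, tabP D, u1⟩ := by
  obtain ⟨u1, h1, h2⟩ := tr_progTP (fits hm w) h (fun _ => 0) 0 (fun _ => rfl) [] u0
    (by show u0 .w = wp D 1; rw [hu, wp_one_eq hwp])
  refine ⟨u1, by rw [h1.2.2.1, wp_one_eq hwp], ?_⟩
  rw [List.nil_append] at h2
  exact h2

/-! The `Run` statements. -/

section run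

open H898 H968
open H968 (CallEnv)
open H968.CallEnv (mem0)

variable {M F α : Type} [DecidableEq F] [DecidableEq α] {d : α} {A : MTM}

theorem cost_leT {D : Dim} (h : D.Ok) {b c : ℕ}
    (hb : b ≤ c * (D.Q * (2 * D.X * wcost A D.W))) :
    b + scr.length * (4 * D.W + 4) + 4 ≤ (c + 30) * (D.Q * (2 * D.X * wcost A D.W)) := by
  have h1 := le_wcost A D.W (W_pos h)
  have h2 : wcost A D.W ≤ D.Q * (2 * D.X * wcost A D.W) := by
    calc wcost A D.W ≤ wcost A D.W * (D.Q * (2 * D.X)) := by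
          refine Nat.le_mul_of_pos_right _ ?_
          have := h.hX
          have := Q_pos h
          exact Nat.mul_pos (by omega) (by omega)
      _ = _ := by ring
  have h3 : scr.length = 10 := rfl
  rw [h3, Nat.add_mul]
  omega

/-- **The table of the middle pass.** The input file is not read (any content). -/
theorem run_tabM (hA : Multiplies A) (E : CallEnv A M (WF RR VV A.Tape) α d)
    (hfile : ∀ c, E.file c = .call c) (one mk : α) (hmk : one ≠ mk) {mem : M}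
    (hmem : E.put (mem0 A) mem = mem) (D : Dim) (h : D.Ok) (hK : 1 ≤ D.K) (hwp : D.w < D.p)
    (m : RR → ℕ) (hm : Rul m D) (u : VV → ℕ) (hu : u .w = D.w) (w : List Bool)
    {ι : WF RR VV A.Tape → F} (hι : Function.Injective ι) (z : F → Zip α)
    (hz : WInit E one scr progTM D.W D.L D.p (2 ^ D.W / D.p + 1) m u w fun f => z (ι f)) :
    Prog.Run d ((wpass E one mk scr progTM).map (Lens.idL M) ι) ⟨mem, z⟩
      (70 * (D.Q * (2 * D.X * wcost A D.W)))
      ⟨mem, update z (ι .out) ⟨[], (tabM D).map E.bit⟩⟩ := by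
  obtain ⟨u1, hu1, hev⟩ := eval_progTM hm h w hwp (fun i => if i ∈ scr then 0 else u i)
    (by rw [← hu]; rfl)
  have h1 := run_wpassMap (d := d) hA E hfile one mk hmk scr scr_nodup progTM wf_progTM
    hmem h.hL (W_pos h) (p_lt D h) (mu_lt D h) m (fun r _ => rul_pos hm h hK r) u u1
    (by
      intro i hi
      rw [not_mem_scr hi, hu1, hu]) w hι z hz hev
  have hT := le_wcost A D.W (W_pos h)
  exact h1.mono (cost_leT h (bd_progTM hm h (by omega) (fun _ => le_rfl)))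

/-- **The table of the final pass.** The input file is not read (any content). -/
theorem run_tabP (hA : Multiplies A) (E : CallEnv A M (WF RR VV A.Tape) α d)
    (hfile : ∀ c, E.file c = .call c) (one mk : α) (hmk : one ≠ mk) {mem : M}
    (hmem : E.put (mem0 A) mem = mem) (D : Dim) (h : D.Ok) (hK : 1 ≤ D.K) (hwp : D.w < D.p)
    (m : RR → ℕ) (hm : Rul m D) (u : VV → ℕ) (hu : u .w = D.w) (w : List Bool)
    {ι : WF RR VV A.Tape → F} (hι : Function.Injective ι) (z : F → Zip α)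
    (hz : WInit E one scr progTP D.W D.L D.p (2 ^ D.W / D.p + 1) m u w fun f => z (ι f)) :
    Prog.Run d ((wpass E one mk scr progTP).map (Lens.idL M) ι) ⟨mem, z⟩
      (90 * (D.Q * (2 * D.X * wcost A D.W)))
      ⟨mem, update z (ι .out) ⟨[], (tabP D).map E.bit⟩⟩ := by
  obtain ⟨u1, hu1, hev⟩ := eval_progTP hm h w hwp (fun i => if i ∈ scr then 0 else u i)
    (by rw [← hu]; rfl)
  have h1 := run_wpassMap (d := d) hA E hfile one mk hmk scr scr_nodup progTP wf_progTP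
    hmem h.hL (W_pos h) (p_lt D h) (mu_lt D h) m (fun r _ => rul_pos hm h hK r) u u1
    (by
      intro i hi
      rw [not_mem_scr hi, hu1, hu]) w hι z hz hev
  have hT := le_wcost A D.W (W_pos h)
  exact h1.mono (cost_leT h (bd_progTP hm h (by omega) (fun _ => le_rfl)))

end run

end Vale.Agent.P338.R2.H772.Bp
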