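import Vale.Agent.P338.R2.H772.Bp.Tab
import Vale.Agent.P338.R2.H784.Bp.Run2

/-!
P338, stage 3: the tables of the constants on the common files.
-/

namespace Vale.Agent.P338.R2.H772.Bp

open Vale.Agent.P338.R2.H898
open Vale.Agent.P338.R2.H968
open Vale.Agent.P338.R2.H784
open Vale.Agent.P338.R2.H784.Fp
open Vale.Agent.P338.R2.H784.Bp
open Vale.Agent.P338.R2.H968.CallEnv (mem0 callC)
open Vale.Agent.P338.R2.H525.Fp (Dim dimR)
open Vale.Agent.P338.R2.H207.Fp (VV)
open Vale.Agent.P338.R2.H778 (bits)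
open Vale.Agent.P338.R2.H778.FpW (PN vB)
open Function (update)

/-- The rulers. -/
abbrev TR : Type := H207.Fp.RR

/-- The files of the passes of the tables. -/
def it (T T₀ Y : Type) (fi fo : LG T T₀ Y) : WF TR VV T₀ → LG T T₀ Y
  | .inp => fi
  | .out => fo
  | .rul r => og (.r (ρM r))
  | .reg i => og (.w (νM i))
  | .wid => og (.r .wd)
  | .wp => og (.w .p)
  | .wmu => og (.w .mu)
  | .wl => og (.r .L2)
  | .call (.inl i) => .inl (.inr (.inl i))
  | .call (.inr k) => og (.c k)

theorem it_data {T T₀ Y : Type} {fi fo : LG T T₀ Y} (g : WF TR VV T₀) (h1 : g ≠ .inp)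
    (h2 : g ≠ .out) : dg (it T T₀ Y fi fo g) = false := by
  rcases g with _ | _ | r | i | _ | _ | _ | _ | (i | k)
  · exact absurd rfl h1
  · exact absurd rfl h2
  all_goals rfl

/-- The files other than the data files. -/
def itn {T₀ : Type} : WF TR VV T₀ → T₀ ⊕ ZF
  | .inp => .inr .dat
  | .out => .inr .opX
  | .rul r => .inr (.r (ρM r))
  | .reg i => .inr (.w (νM i))
  | .wid => .inr (.r .wd)
  | .wp => .inr (.w .p)
  | .wmu => .inr (.w .mu)
  | .wl => .inr (.r .L2)
  | .call (.inl i) => .inl i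
  | .call (.inr k) => .inr (.c k)

theorem itn_inj {T₀ : Type} : Function.Injective (itn (T₀ := T₀)) := by
  intro a b hab
  rcases a with _ | _ | r | i | _ | _ | _ | _ | (i | k) <;>
    rcases b with _ | _ | r' | i' | _ | _ | _ | _ | (i' | k') <;>
    (try cases r) <;> (try cases i) <;> (try cases r') <;> (try cases i') <;>
    simp_all [itn, ρM, νM]

theorem it_eq {T T₀ Y : Type} {fi fo : LG T T₀ Y} (g : WF TR VV T₀) (h1 : g ≠ .inp)
    (h2 : g ≠ .out) : it T T₀ Y fi fo g = .inl (.inr (itn g)) := by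
  rcases g with _ | _ | r | i | _ | _ | _ | _ | (i | k)
  · exact absurd rfl h1
  · exact absurd rfl h2
  all_goals rfl

theorem it_inj {T T₀ Y : Type} {fi fo : LG T T₀ Y} (h1 : dg fi = true)
    (h2 : dg fo = true) (h3 : fi ≠ fo) : Function.Injective (it T T₀ Y fi fo) := by
  intro a b hab
  by_cases ha1 : a = .inp
  · subst ha1
    by_cases hb1 : b = .inp
    · exact hb1.symm
    · by_cases hb2 : b = .out
      · subst hb2
        exact absurd hab h3
      · have := it_data (fi := fi) (fo := fo) b hb1 hb2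
        rw [← hab] at this
        rw [show it T T₀ Y fi fo .inp = fi from rfl, h1] at this
        exact absurd this (by simp)
  by_cases ha2 : a = .out
  · subst ha2
    by_cases hb1 : b = .inp
    · subst hb1
      exact absurd hab.symm h3
    · by_cases hb2 : b = .out
      · exact hb2.symm
      · have := it_data (fi := fi) (fo := fo) b hb1 hb2
        rw [← hab] at this
        rw [show it T T₀ Y fi fo .out = fo from rfl, h2] at this
        exact absurd this (by simp)
  have had := it_data (fi := fi) (fo := fo) a ha1 ha2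
  rw [hab] at had
  have hb1 : b ≠ .inp := by
    rintro rfl
    rw [show it T T₀ Y fi fo .inp = fi from rfl, h1] at had
    exact absurd had (by simp)
  have hb2 : b ≠ .out := by
    rintro rfl
    rw [show it T T₀ Y fi fo .out = fo from rfl, h2] at had
    exact absurd had (by simp)
  rw [it_eq a ha1 ha2, it_eq b hb1 hb2] at hab
  exact itn_inj (Sum.inr_injective (Sum.inl_injective hab))

variable {A A₀ : MTM} {Y : Type} {l W h n p w : ℕ}

/-- The initial store of a pass of the tables. -/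
theorem wInit_z2 (sc : List VV) (a : XP TR Bool (WI VV)) {W L p μ : ℕ}
    {fi fo : LG A.Tape A₀.Tape Y} (S : ZS (Al A A₀)) (B : BS (Al A A₀)) (hwid : S.r .wd = W)
    (hwl : S.r .L2 = L) (hwp : S.w .p = bw A A₀ (bits W p)) (hwμ : S.w .mu = bw A A₀ (bits W μ))
    (u : VV → ℕ) (hreg : ∀ i, S.w (νM i) = if i ∈ sc then ⟨[], []⟩ else bw A A₀ (bits W (u i)))
    (x : List Bool) (hin : z2 (T := A.Tape) (T₀ := A₀.Tape) (Y := Y) .u S B fi = bw A A₀ x)
    (hout : z2 (T := A.Tape) (T₀ := A₀.Tape) (Y := Y) .u S B fo = ⟨[], []⟩) :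
    WInit (lE A A₀ TR VV) .u sc a W L p μ (fun r => S.r (ρM r)) u x
      (fun f => z2 .u S B (it A.Tape A₀.Tape Y fi fo f)) where
  inp := hin
  out := hout
  rul := fun _ _ => rfl
  reg := fun i => hreg i
  wid := ⟨_, rfl, by rw [List.length_replicate]; exact hwid⟩
  wl := ⟨_, rfl, by rw [List.length_replicate]; exact hwl⟩
  wp := hwp
  wmu := hwμ
  call := fun c => by
    rcases c with i | k
    · rfl
    · rfl

/-- The pass of the table of the middle pass. -/
noncomputable def tabMQ (A A₀ : MTM) {Y : Type} [DecidableEq (Al A A₀)]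
    (fi fo : LG A.Tape A₀.Tape Y) : PG A A₀ Y :=
  (wpass (lE A A₀ TR VV) .u .k H207.Fp.scr progTM).map (Lens.idL _) (it A.Tape A₀.Tape Y fi fo)

/-- The pass of the table of the final pass. -/
noncomputable def tabPQ (A A₀ : MTM) {Y : Type} [DecidableEq (Al A A₀)]
    (fi fo : LG A.Tape A₀.Tape Y) : PG A A₀ Y :=
  (wpass (lE A A₀ TR VV) .u .k H207.Fp.scr progTP).map (Lens.idL _) (it A.Tape A₀.Tape Y fi fo)

variable [DecidableEq (LG A.Tape A₀.Tape Y)] [DecidableEq (Al A A₀)]

/-- **The table of the middle pass on the common files.** `fi` is any data file (not read). -/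
theorem run_tabMQ (hA₀ : Multiplies A₀) (hD : (dimR l W h p w).Ok) (hwp : w < p)
    {fi fo : LG A.Tape A₀.Tape Y} (hfi : dg fi = true) (hfo : dg fo = true) (hne : fi ≠ fo)
    (dat clk opX opY res : Zip (Al A A₀)) (B : BS (Al A A₀)) (x : List Bool)
    (hi : z2 .u (sB l W h n p w dat clk opX opY res) B fi = bw A A₀ x)
    (ho : z2 .u (sB l W h n p w dat clk opX opY res) B fo = ⟨[], []⟩) :
    Prog.Run (dd A A₀) (tabMQ A A₀ fi fo)
      (st2 Y (sB l W h n p w dat clk opX opY res) B)
      (70 * ((dimR l W h p w).Q * (2 * (dimR l W h p w).X * wcost A₀ W)))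
      ⟨(mem0 A, mem0 A₀), update (z2 .u (sB l W h n p w dat clk opX opY res) B) fo
        (bw A A₀ (tabM (dimR l W h p w)))⟩ :=
  run_tabM (d := dd A A₀) (M := Mem A A₀) (F := LG A.Tape A₀.Tape Y) hA₀
    (lE A A₀ TR VV) (fun _ => rfl) .u .k (by simp) (mem := (mem0 A, mem0 A₀)) rfl
    (dimR l W h p w) hD Nat.one_le_two_pow hwp
    (fun r => vB l W h (p - 1) (ρM r)) (rulM l W h p w) (fun _ => w) rfl x
    (ι := it A.Tape A₀.Tape Y fi fo) (it_inj hfi hfo hne)
    (z2 .u (sB l W h n p w dat clk opX opY res) B)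
    (wInit_z2 (W := W) (p := p) (μ := 2 ^ W / p + 1) H207.Fp.scr progTM
      (sB l W h n p w dat clk opX opY res) B rfl rfl rfl rfl
      (fun _ => w) (by
        intro i
        cases i <;> simp [sB, zA, νM, H207.Fp.scr]) x hi ho)

/-- **The table of the final pass on the common files.** `fi` is any data file (not read). -/
theorem run_tabPQ (hA₀ : Multiplies A₀) (hD : (dimR l W h p w).Ok) (hwp : w < p)
    {fi fo : LG A.Tape A₀.Tape Y} (hfi : dg fi = true) (hfo : dg fo = true) (hne : fi ≠ fo)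
    (dat clk opX opY res : Zip (Al A A₀)) (B : BS (Al A A₀)) (x : List Bool)
    (hi : z2 .u (sB l W h n p w dat clk opX opY res) B fi = bw A A₀ x)
    (ho : z2 .u (sB l W h n p w dat clk opX opY res) B fo = ⟨[], []⟩) :
    Prog.Run (dd A A₀) (tabPQ A A₀ fi fo)
      (st2 Y (sB l W h n p w dat clk opX opY res) B)
      (90 * ((dimR l W h p w).Q * (2 * (dimR l W h p w).X * wcost A₀ W)))
      ⟨(mem0 A, mem0 A₀), update (z2 .u (sB l W h n p w dat clk opX opY res) B) fo
        (bw A A₀ (tabP (dimR l W h p w)))⟩ :=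
  run_tabP (d := dd A A₀) (M := Mem A A₀) (F := LG A.Tape A₀.Tape Y) hA₀
    (lE A A₀ TR VV) (fun _ => rfl) .u .k (by simp) (mem := (mem0 A, mem0 A₀)) rfl
    (dimR l W h p w) hD Nat.one_le_two_pow hwp
    (fun r => vB l W h (p - 1) (ρM r)) (rulM l W h p w) (fun _ => w) rfl x
    (ι := it A.Tape A₀.Tape Y fi fo) (it_inj hfi hfo hne)
    (z2 .u (sB l W h n p w dat clk opX opY res) B)
    (wInit_z2 (W := W) (p := p) (μ := 2 ^ W / p + 1) H207.Fp.scr progTP
      (sB l W h n p w dat clk opX opY res) B rfl rfl rfl rfl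
      (fun _ => w) (by
        intro i
        cases i <;> simp [sB, zA, νM, H207.Fp.scr]) x hi ho)

end Vale.Agent.P338.R2.H772.Bp
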